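import Vale.Agent.Lib.P047M.Main

/-!
# P047: monotone Boolean functions of degree `d` have level-one sum at most `(2/π)(d+2)`

For a monotone Boolean function the biased mean `Φ(r) = ∑_S fhat(S) r^|S|` is a nondecreasing
polynomial of degree at most `d` with values in `[-1,1]` on `[-1,1]`, and `Φ'(0) = ∑_i fhat({i})`.
The polynomial `P = (1 - x^2) Φ'` is nonnegative on `[-1,1]` and has degree at most `d + 1`, so by
averaging `P(cos θ)` over `d + 2` equally spaced angles,
`P(0) ≤ (d+2)/π ∫_0^π P(cos θ) dθ ≤ (d+2)/π ∫_0^π sin θ Φ'(cos θ) dθ = (d+2)/π (Φ(1) - Φ(-1))`.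
-/

namespace Vale.Agent.Results.P047.AMonotone

open Vale.Agent.P047

theorem result (n d : ℕ) (f : (Fin n → Bool) → Bool)
    (hmono : ∀ x y : Fin n → Bool, (∀ i, x i ≤ y i) → f x ≤ f y) (hd : DegLE f d) :
    levelOne f ≤ 2 * ((d : ℝ) + 2) / Real.pi :=
  Vale.Agent.P047M.monotone_bound f hmono hd

end Vale.Agent.Results.P047.AMonotone
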