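import Mathlib
import Vale.Agent.Lib.P047N.Final

namespace Vale.Agent.Results.P047.ANearFullDegree

open Vale.Agent.P047

/-- If a Boolean function of `N` variables has degree at most `d` and `N ≤ d + 2` (or `d` is odd
and `N ≤ d + 3`), then the sum of its level-one Fourier coefficients is at most
`B_d = E|X_1 + ... + X_d|`, hence at most `sqrt d`. -/
theorem result :
    ∀ (N d : ℕ) (f : (Fin N → Bool) → Bool), DegLE f d →
      (N ≤ d + 2 ∨ (Odd d ∧ N ≤ d + 3)) →
      levelOne f ≤ Bd d ∧ levelOne f ≤ Real.sqrt d :=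
  fun _ d f h hN =>
    ⟨levelOne_le_Bd_of_near' f h hN, (levelOne_le_Bd_of_near' f h hN).trans (Bd_le_sqrt d)⟩

end Vale.Agent.Results.P047.ANearFullDegree
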