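import Vale.Agent.Lib.P047T.Power

/-!
# P047: the constant in the Gopalan-Servedio conjecture can be removed (tensor power trick)

For every exponent `γ ≥ 0`: a bound `∑_i fhat({i}) ≤ C deg(f)^γ` for all Boolean `f`, with any
constant `C`, is equivalent to the bound `∑_i fhat({i}) + |fhat(∅)| ≤ (deg(f) + 1)^γ` for all `f`, and
implies `∑_i fhat({i}) ≤ deg(f)^γ` for all balanced `f`.

Proof.  For a balanced inner function `g`, block composition multiplies the level-one sums and the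
degrees.  So the `k`-th tensor power of a balanced `g` has level-one sum `L(g)^k` and degree at most
`d^k`; take `k`-th roots in `L(g)^k ≤ C d^(γ k)`.  A general `f` is made balanced by passing to the odd
function `x_0 f(x_0 x)`, of degree at most `d + 1` and level-one sum `L(f) + fhat(∅)`, and `-f(-x)`
changes the sign of `fhat(∅)` only.
-/

namespace Vale.Agent.Results.P047.ATensorPower

open Vale.Agent.P047

theorem result (γ : ℝ) (hγ : 0 ≤ γ) :
    ((∃ C : ℝ, ∀ (n d : ℕ) (f : (Fin n → Bool) → Bool), 1 ≤ d → DegLE f d →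
        levelOne f ≤ C * (d : ℝ) ^ γ) ↔
      (∀ (n d : ℕ) (f : (Fin n → Bool) → Bool), DegLE f d →
        levelOne f + |fhat f ∅| ≤ ((d : ℝ) + 1) ^ γ)) ∧
    ((∃ C : ℝ, ∀ (n d : ℕ) (f : (Fin n → Bool) → Bool), 1 ≤ d → DegLE f d →
        levelOne f ≤ C * (d : ℝ) ^ γ) →
      ∀ (n d : ℕ) (f : (Fin n → Bool) → Bool), 1 ≤ d → fhat f ∅ = 0 → DegLE f d →
        levelOne f ≤ (d : ℝ) ^ γ) := by
  refine ⟨⟨?_, ?_⟩, ?_⟩
  · rintro ⟨C, hC⟩ n d f hfd
    exact Vale.Agent.P047T.general_bound γ C hC n d f hfd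
  · intro h
    refine ⟨2 ^ γ, ?_⟩
    intro n d f hd1 hfd
    have h1 := h n d f hfd
    have hd : (1 : ℝ) ≤ d := by exact_mod_cast hd1
    have h2 : ((d : ℝ) + 1) ^ γ ≤ (2 * (d : ℝ)) ^ γ :=
      Real.rpow_le_rpow (by linarith) (by linarith) hγ
    rw [Real.mul_rpow (by norm_num) (by linarith)] at h2
    have h3 := abs_nonneg (fhat f ∅)
    linarith
  · rintro ⟨C, hC⟩ n d f hd1 hf0 hfd
    exact Vale.Agent.P047T.balanced_bound γ C hC n d f hd1 hf0 hfd

end Vale.Agent.Results.P047.ATensorPower
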