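import Vale.Agent.Lib.P047.Core2
import Vale.Agent.Lib.P047.Biased

namespace Vale.Agent.Results.P047.LinearImprovement

open Vale.Agent.P047 Polynomial Finset

/-- the polynomial `sum_S fhat(S) X^|S|`. -/
noncomputable def PhiPoly {n : ℕ} (f : (Fin n → Bool) → Bool) : ℝ[X] :=
  ∑ S : Finset (Fin n), C (fhat f S) * X ^ S.card

lemma PhiPoly_eval {n : ℕ} (f : (Fin n → Bool) → Bool) (r : ℝ) :
    (PhiPoly f).eval r = PhiFn f r := by
  unfold PhiPoly PhiFn
  rw [eval_finsetSum]
  simp

lemma PhiPoly_deriv_eval {n : ℕ} (f : (Fin n → Bool) → Bool) (r : ℝ) :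
    (derivative (PhiPoly f)).eval r = dPhiFn f r := by
  unfold PhiPoly dPhiFn
  rw [derivative_sum, eval_finsetSum]
  apply Finset.sum_congr rfl
  intro S _
  simp only [derivative_mul, derivative_C, zero_mul, zero_add, derivative_X_pow, eval_mul, eval_C,
    eval_pow, eval_X]

lemma PhiPoly_natDegree {n d : ℕ} (f : (Fin n → Bool) → Bool) (hd : DegLE f d) :
    (PhiPoly f).natDegree ≤ d := by
  unfold PhiPoly
  apply natDegree_sum_le_of_forall_le
  intro S _
  by_cases h : d < S.card
  · rw [hd S h]; simp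
  · exact le_trans (natDegree_C_mul_X_pow_le _ _) (by omega)

lemma PhiPoly_coeff_one {n : ℕ} (f : (Fin n → Bool) → Bool) :
    (PhiPoly f).coeff 1 = levelOne f := by
  unfold PhiPoly levelOne
  rw [finsetSum_coeff]
  simp only [coeff_C_mul_X_pow]
  rw [← Finset.sum_filter]
  have : (Finset.univ.filter (fun S : Finset (Fin n) => 1 = S.card))
      = Finset.univ.map ⟨fun i : Fin n => ({i} : Finset (Fin n)), Finset.singleton_injective⟩ := by
    ext S
    simp only [Finset.mem_filter, Finset.mem_univ, true_and, Finset.mem_map,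
      Function.Embedding.coeFn_mk]
    constructor
    · intro h
      obtain ⟨a, ha⟩ := Finset.card_eq_one.mp h.symm
      exact ⟨a, ha.symm⟩
    · rintro ⟨a, rfl⟩
      simp
  rw [this, Finset.sum_map]
  simp

/-- Every Boolean function of degree at most `d` (`d ≥ 2`) has level-one Fourier sum at most
`0.97 d`. -/
theorem result : ∀ (n d : ℕ) (f : (Fin n → Bool) → Bool), 2 ≤ d → DegLE f d →
    levelOne f ≤ 97 / 100 * (d : ℝ) := by
  intro n d f hd hdeg
  rw [← PhiPoly_coeff_one]
  apply core2 hd (PhiPoly f) (PhiPoly_natDegree f hdeg)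
  · intro r hr
    rw [PhiPoly_eval]
    exact PhiFn_abs_le_one f hr
  · intro r hr
    rw [PhiPoly_eval, PhiPoly_deriv_eval]
    exact biased_ineq f hdeg hr

end Vale.Agent.Results.P047.LinearImprovement
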