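import Vale.Agent.Lib.P047.Cube
import Vale.Agent.Lib.P047.Numeric

namespace Vale.Agent.Results.P047.NonnegJunta

open Finset Vale.Agent.P047

/-- product and sum over a sign pattern in terms of the numbers of `true` and `false`. -/
lemma prod_sum_count {n : ℕ} (J : Finset (Fin n)) (a : Fin n → Bool) (τ : ℝ) :
    (∏ i ∈ J, (1 + τ * sgn (a i)))
        = (1 + τ) ^ (J.filter (fun i => a i = true)).card
          * (1 - τ) ^ (J.filter (fun i => ¬ a i = true)).card ∧
    (∑ i ∈ J, sgn (a i))
        = ((J.filter (fun i => a i = true)).card : ℝ) - ((J.filter (fun i => ¬ a i = true)).card : ℝ) := by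
  constructor
  · have : ∀ i ∈ J, (1 + τ * sgn (a i)) = if a i = true then (1 + τ) else (1 - τ) := by
      intro i _
      cases a i <;> simp [sgn]
      ring
    rw [Finset.prod_congr rfl this, Finset.prod_ite]
    simp
  · have : ∀ i ∈ J, sgn (a i) = if a i = true then (1:ℝ) else -1 := by
      intro i _
      cases a i <;> simp [sgn]
    rw [Finset.sum_congr rfl this, Finset.sum_ite]
    simp
    ring

theorem result {n : ℕ} (f : (Fin n → Bool) → Bool) (v : Bool) (w : ℕ)
    {ι : Type} [Fintype ι] (J : ι → Finset (Fin n)) (a : ι → Fin n → Bool) (c : ι → ℝ)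
    (hc : ∀ k, 0 ≤ c k) (hw : ∀ k, (J k).card ≤ w)
    (hrep : ∀ x : Fin n → Bool,
      (if f x = v then (1:ℝ) else 0) = ∑ k, (if ∀ i ∈ J k, x i = a k i then c k else 0)) :
    DegLE f w ∧ levelOne f ≤ 2 * Real.sqrt ((w + 1) / Real.exp 1) := by
  classical
  set σ : ℝ := sgn v with hσ
  have hσ2 : σ * σ = 1 := sgn_sq v
  have hrep' : ∀ x : Fin n → Bool,
      (if f x = v then (1:ℝ) else 0) = ∑ k, ind (J k) (a k) x * c k := by
    intro x
    rw [hrep x]
    apply Finset.sum_congr rfl
    intro k _
    unfold ind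
    by_cases h : ∀ i ∈ J k, x i = a k i
    · rw [if_pos h, if_pos h, one_mul]
    · rw [if_neg h, if_neg h, zero_mul]
  have hsg : ∀ x : Fin n → Bool, sgn (f x) = σ * (2 * (∑ k, ind (J k) (a k) x * c k) - 1) := by
    intro x
    rw [← hrep' x, hσ]
    cases hfx : f x <;> cases hv : v <;> simp [sgn] <;> norm_num
  -- Fourier coefficients on nonempty sets
  have hF : ∀ T : Finset (Fin n), T ≠ ∅ → fhat f T
      = 2 * σ * ∑ k, c k * (if T ⊆ J k then (1 / 2 ^ (J k).card) * ∏ i ∈ T, sgn (a k i) else 0) := by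
    intro T hT
    unfold fhat
    rw [← sum_comb_chi]
    have h0 := char_mean T
    rw [if_neg hT] at h0
    have h1 : ∀ x : Fin n → Bool, sgn (f x) * ∏ i ∈ T, sgn (x i)
        = 2 * σ * ((∑ k, ind (J k) (a k) x * c k) * ∏ i ∈ T, sgn (x i)) - σ * ∏ i ∈ T, sgn (x i) := by
      intro x
      rw [hsg x]; ring
    rw [Finset.sum_congr rfl (fun x _ => h1 x), Finset.sum_sub_distrib, ← Finset.mul_sum,
      ← Finset.mul_sum, sub_div, mul_div_assoc σ, h0, mul_zero, sub_zero, mul_div_assoc]
  constructor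
  · intro T hT
    have hne : T ≠ ∅ := by
      intro h; subst h; simp at hT
    rw [hF T hne]
    have : ∑ k, c k * (if T ⊆ J k then (1 / 2 ^ (J k).card) * ∏ i ∈ T, sgn (a k i) else 0) = 0 := by
      apply Finset.sum_eq_zero
      intro k _
      have : ¬ T ⊆ J k := by
        intro h
        have := Finset.card_le_card h
        have := hw k
        omega
      rw [if_neg this, mul_zero]
    rw [this, mul_zero]
  · -- level one
    set K : ℝ := Real.sqrt ((w + 1) / Real.exp 1) with hK
    set t : ℝ := 1 / Real.sqrt (w + 1) with ht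
    have hw1 : (0:ℝ) < (w:ℝ) + 1 := by positivity
    have hT1 : 1 ≤ Real.sqrt ((w:ℝ) + 1) := by
      apply Real.one_le_sqrt.mpr
      have : (0:ℝ) ≤ w := Nat.cast_nonneg w
      linarith
    have ht0 : 0 ≤ t := by rw [ht]; positivity
    have ht1 : t ≤ 1 := by
      rw [ht, div_le_one (by linarith)]; exact hT1
    set τ : ℝ := σ * t with hτ
    have hσabs : |σ| = 1 := sgn_abs v
    have hτabs : |τ| ≤ 1 := by
      rw [hτ, abs_mul, hσabs, one_mul, abs_of_nonneg ht0]; exact ht1
    have hW : levelOne f = 2 * ∑ k, c k * ((1 / 2 ^ (J k).card) * (σ * ∑ i ∈ J k, sgn (a k i))) := by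
      unfold levelOne
      rw [Finset.sum_congr rfl (fun i _ => hF {i} (Finset.singleton_ne_empty i)), ← Finset.mul_sum,
        Finset.sum_comm, mul_assoc, Finset.mul_sum]
      congr 1
      apply Finset.sum_congr rfl
      intro k _
      rw [← Finset.mul_sum]
      have : ∑ i : Fin n, (if ({i} : Finset (Fin n)) ⊆ J k
            then (1 / 2 ^ (J k).card) * ∏ j ∈ ({i} : Finset (Fin n)), sgn (a k j) else 0)
          = (1 / 2 ^ (J k).card) * ∑ i ∈ J k, sgn (a k i) := by
        simp only [Finset.singleton_subset_iff, Finset.prod_singleton]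
        rw [Finset.mul_sum, ← Finset.sum_filter]
        apply Finset.sum_congr _ (fun _ _ => rfl)
        ext i; simp
      rw [this]; ring
    -- termwise bound
    have hterm : ∀ k, σ * ∑ i ∈ J k, sgn (a k i) ≤ K * ∏ i ∈ J k, (1 + τ * sgn (a k i)) := by
      intro k
      obtain ⟨hp, hs⟩ := prod_sum_count (J k) (a k) τ
      rw [hp, hs]
      set A := ((J k).filter (fun i => a k i = true)).card
      set B := ((J k).filter (fun i => ¬ a k i = true)).card
      have hAB : A + B ≤ w := by
        have := Finset.card_filter_add_card_filter_not (s := J k) (fun i => a k i = true)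
        have := hw k
        omega
      cases hv : v
      · -- σ = -1
        have hσm : σ = -1 := by rw [hσ, hv]; simp [sgn]
        have := key_ineq B A w (by omega)
        rw [hτ, hσm]
        calc -1 * ((A:ℝ) - B) = (B:ℝ) - A := by ring
          _ ≤ K * ((1 + t) ^ B * (1 - t) ^ A) := this
          _ = K * ((1 + -1 * t) ^ A * (1 - -1 * t) ^ B) := by ring
      · have hσp : σ = 1 := by rw [hσ, hv]; simp [sgn]
        have := key_ineq A B w hAB
        rw [hτ, hσp]
        calc 1 * ((A:ℝ) - B) = (A:ℝ) - B := by ring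
          _ ≤ K * ((1 + t) ^ A * (1 - t) ^ B) := this
          _ = K * ((1 + 1 * t) ^ A * (1 - 1 * t) ^ B) := by ring
    -- total biased mass
    have hpi0 : ∀ x : Fin n → Bool, 0 ≤ ∏ i, (1 + τ * sgn (x i)) / 2 := by
      intro x
      apply Finset.prod_nonneg
      intro i _
      have h1 : |τ * sgn (x i)| ≤ 1 := by
        rw [abs_mul, sgn_abs, mul_one]; exact hτabs
      have := (abs_le.mp h1).1
      linarith
    have hpi1 : ∑ x : Fin n → Bool, ∏ i, (1 + τ * sgn (x i)) / 2 = 1 := by
      have := sum_bias_ind τ (∅ : Finset (Fin n)) (fun _ => true)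
      simpa [ind] using this
    have hmass : ∑ k, c k * ∏ i ∈ J k, (1 + τ * sgn (a k i)) / 2 ≤ 1 := by
      have h1 : ∑ k, c k * ∏ i ∈ J k, (1 + τ * sgn (a k i)) / 2
          = ∑ x : Fin n → Bool, (∏ i, (1 + τ * sgn (x i)) / 2) * (∑ k, ind (J k) (a k) x * c k) := by
        simp_rw [Finset.mul_sum]
        rw [Finset.sum_comm]
        apply Finset.sum_congr rfl
        intro k _
        rw [← sum_bias_ind τ (J k) (a k), Finset.mul_sum]
        apply Finset.sum_congr rfl
        intro x _
        ring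
      rw [h1]
      refine le_trans ?_ (le_of_eq hpi1)
      apply Finset.sum_le_sum
      intro x _
      rw [← hrep' x]
      have := hpi0 x
      by_cases h : f x = v
      · rw [if_pos h, mul_one]
      · rw [if_neg h, mul_zero]; exact this
    have hK0 : 0 ≤ K := Real.sqrt_nonneg _
    rw [hW]
    have h2 : ∑ k, c k * ((1 / 2 ^ (J k).card) * (σ * ∑ i ∈ J k, sgn (a k i)))
        ≤ ∑ k, K * (c k * ∏ i ∈ J k, (1 + τ * sgn (a k i)) / 2) := by
      apply Finset.sum_le_sum
      intro k _
      rw [Finset.prod_div_distrib, Finset.prod_const]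
      have h3 : (0:ℝ) ≤ 1 / 2 ^ (J k).card := by positivity
      calc c k * ((1 / 2 ^ (J k).card) * (σ * ∑ i ∈ J k, sgn (a k i)))
          ≤ c k * ((1 / 2 ^ (J k).card) * (K * ∏ i ∈ J k, (1 + τ * sgn (a k i)))) :=
            mul_le_mul_of_nonneg_left (mul_le_mul_of_nonneg_left (hterm k) h3) (hc k)
        _ = K * (c k * ((∏ i ∈ J k, (1 + τ * sgn (a k i))) / 2 ^ (J k).card)) := by ring
    have h4 : ∑ k, K * (c k * ∏ i ∈ J k, (1 + τ * sgn (a k i)) / 2) ≤ K := by
      rw [← Finset.mul_sum]
      calc K * ∑ k, c k * ∏ i ∈ J k, (1 + τ * sgn (a k i)) / 2 ≤ K * 1 :=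
            mul_le_mul_of_nonneg_left hmass hK0
        _ = K := mul_one K
    linarith

end Vale.Agent.Results.P047.NonnegJunta
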