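import Vale.Agent.Lib.P047.Cube

namespace Vale.Agent.Results.P047.SubcubePartition

open Finset Vale.Agent.P047

lemma pow_sub_div {n c : ℕ} (h : c ≤ n) : (2:ℝ) ^ (n - c) / 2 ^ n = 1 / 2 ^ c := by
  rw [div_eq_div_iff (by positivity) (by positivity), one_mul, ← pow_add]
  congr 1
  omega

theorem result {n : ℕ} (f : (Fin n → Bool) → Bool)
    {ι : Type} [Fintype ι] (J : ι → Finset (Fin n)) (a : ι → Fin n → Bool)
    (hpart : ∀ x : Fin n → Bool, ∃! k, ∀ i ∈ J k, x i = a k i)
    (hconst : ∀ k x, (∀ i ∈ J k, x i = a k i) → f x = f (a k)) :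
    levelOne f ≤ Real.sqrt ((1 - (fhat f ∅) ^ 2) * ∑ k, ((J k).card : ℝ) / 2 ^ (J k).card) ∧
    ∀ w : ℕ, (∀ k, (J k).card ≤ w) → (DegLE f w ∧ levelOne f ≤ Real.sqrt w) := by
  classical
  have hcard : ∀ k, (J k).card ≤ n := fun k => by
    simpa using Finset.card_le_univ (J k)
  -- pointwise expansions
  have hexpG : ∀ (c : ι → ℝ) (g : (Fin n → Bool) → ℝ),
      (∀ k x, (∀ i ∈ J k, x i = a k i) → g x = c k) →
      ∀ x, g x = ∑ k, ind (J k) (a k) x * c k := by
    intro c g hg x
    obtain ⟨k0, hk0, huniq⟩ := hpart x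
    rw [Finset.sum_eq_single k0]
    · simp only [ind]
      rw [if_pos hk0, one_mul]
      exact hg k0 x hk0
    · intro k _ hk
      simp only [ind]
      rw [if_neg (fun h => hk (huniq k h)), zero_mul]
    · intro h; exact absurd (Finset.mem_univ k0) h
  have hexp : ∀ x, sgn (f x) = ∑ k, ind (J k) (a k) x * sgn (f (a k)) :=
    hexpG (fun k => sgn (f (a k))) (fun x => sgn (f x)) (fun k x hx => by rw [hconst k x hx])
  have hone : ∀ x : Fin n → Bool, (1:ℝ) = ∑ k, ind (J k) (a k) x * 1 :=
    hexpG (fun _ => 1) (fun _ => 1) (fun _ _ _ => rfl)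
  -- general formula
  have hsum : ∀ (c : ι → ℝ) (T : Finset (Fin n)),
      (∑ x : Fin n → Bool, (∑ k, ind (J k) (a k) x * c k) * ∏ i ∈ T, sgn (x i)) / 2 ^ n
        = ∑ k, c k * (if T ⊆ J k then (1 / 2 ^ (J k).card) * ∏ i ∈ T, sgn (a k i) else 0) := by
    intro c T
    have : ∀ x : Fin n → Bool, (∑ k, ind (J k) (a k) x * c k) * ∏ i ∈ T, sgn (x i)
        = ∑ k, c k * (ind (J k) (a k) x * ∏ i ∈ T, sgn (x i)) := by
      intro x
      rw [Finset.sum_mul]
      apply Finset.sum_congr rfl
      intro k _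
      ring
    rw [Finset.sum_congr rfl (fun x _ => this x), Finset.sum_comm, Finset.sum_div]
    apply Finset.sum_congr rfl
    intro k _
    rw [← Finset.mul_sum, sum_ind_chi]
    by_cases h : T ⊆ J k
    · rw [if_pos h, if_pos h, mul_div_assoc, mul_div_right_comm, pow_sub_div (hcard k)]
    · rw [if_neg h, if_neg h]; simp
  have hF : ∀ T, fhat f T
      = ∑ k, sgn (f (a k)) * (if T ⊆ J k then (1 / 2 ^ (J k).card) * ∏ i ∈ T, sgn (a k i) else 0) := by
    intro T
    unfold fhat
    rw [← hsum]
    congr 1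
    apply Finset.sum_congr rfl
    intro x _
    rw [hexp x]
  have hU : ∀ T : Finset (Fin n), (∑ x : Fin n → Bool, (1:ℝ) * ∏ i ∈ T, sgn (x i)) / 2 ^ n
      = ∑ k, 1 * (if T ⊆ J k then (1 / 2 ^ (J k).card) * ∏ i ∈ T, sgn (a k i) else 0) := by
    intro T
    rw [← hsum]
    congr 1
    apply Finset.sum_congr rfl
    intro x _
    rw [← hone x]
  -- sums of characters over the whole cube
  have hchar : ∀ T : Finset (Fin n), (∑ x : Fin n → Bool, (1:ℝ) * ∏ i ∈ T, sgn (x i)) / 2 ^ n
      = if T = ∅ then 1 else 0 := by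
    intro T
    have h0 := sum_ind_chi (∅ : Finset (Fin n)) (fun _ => true) T
    have h1 : ∀ x : Fin n → Bool, ind (∅ : Finset (Fin n)) (fun _ => true) x = 1 := by
      intro x; simp [ind]
    simp only [h1] at h0
    rw [h0]
    by_cases hT : T = ∅
    · subst hT; simp
    · have : ¬ T ⊆ ∅ := by
        intro h; exact hT (Finset.subset_empty.mp h)
      rw [if_neg this, if_neg hT]; simp
  set m : ι → ℝ := fun k => 1 / 2 ^ (J k).card with hm
  set s : ι → ℝ := fun k => ∑ i ∈ J k, sgn (a k i) with hs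
  have hmpos : ∀ k, 0 ≤ m k := fun k => by simp only [hm]; positivity
  -- total mass one
  have hmass : ∑ k, m k = 1 := by
    have h1 := hU ∅
    rw [hchar ∅] at h1
    simp at h1
    simp only [hm]
    simpa using h1.symm
  -- level one
  have hW : levelOne f = ∑ k, m k * sgn (f (a k)) * s k := by
    unfold levelOne
    simp_rw [hF]
    rw [Finset.sum_comm]
    apply Finset.sum_congr rfl
    intro k _
    rw [← Finset.mul_sum]
    have : ∑ i : Fin n, (if ({i} : Finset (Fin n)) ⊆ J k then (1 / 2 ^ (J k).card) * ∏ j ∈ ({i} : Finset (Fin n)), sgn (a k j) else 0)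
        = m k * s k := by
      simp only [Finset.singleton_subset_iff, Finset.prod_singleton, hm, hs]
      rw [Finset.mul_sum, ← Finset.sum_filter]
      apply Finset.sum_congr _ (fun _ _ => rfl)
      ext i; simp
    rw [this]; ring
  -- second moment
  have hpair : ∀ i j : Fin n, i ≠ j →
      ∑ k, m k * ((if i ∈ J k then sgn (a k i) else 0) * (if j ∈ J k then sgn (a k j) else 0)) = 0 := by
    intro i j hij
    have h1 := hU {i, j}
    rw [hchar] at h1
    have hne : ({i, j} : Finset (Fin n)) ≠ ∅ := Finset.insert_ne_empty _ _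
    rw [if_neg hne] at h1
    refine Eq.trans ?_ h1.symm
    apply Finset.sum_congr rfl
    intro k _
    rw [Finset.prod_pair hij, one_mul]
    by_cases hi : i ∈ J k <;> by_cases hj : j ∈ J k <;>
      simp [Finset.insert_subset_iff, hi, hj, hm]
  have hs' : ∀ k, s k = ∑ i : Fin n, (if i ∈ J k then sgn (a k i) else 0) := by
    intro k
    simp only [hs]
    rw [← Finset.sum_filter]
    apply Finset.sum_congr _ (fun _ _ => rfl)
    ext i; simp
  have hsecond : ∑ k, m k * (s k) ^ 2 = ∑ k, ((J k).card : ℝ) / 2 ^ (J k).card := by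
    have h1 : ∀ k, m k * (s k) ^ 2 = ∑ i : Fin n, ∑ j : Fin n,
        m k * ((if i ∈ J k then sgn (a k i) else 0) * (if j ∈ J k then sgn (a k j) else 0)) := by
      intro k
      rw [hs' k, sq, Finset.sum_mul_sum, Finset.mul_sum]
      apply Finset.sum_congr rfl
      intro i _
      rw [Finset.mul_sum]
    rw [Finset.sum_congr rfl (fun k _ => h1 k), Finset.sum_comm]
    have h2 : ∀ i : Fin n, ∑ k, ∑ j : Fin n,
        m k * ((if i ∈ J k then sgn (a k i) else 0) * (if j ∈ J k then sgn (a k j) else 0))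
        = ∑ k, m k * (if i ∈ J k then 1 else 0) := by
      intro i
      rw [Finset.sum_comm, Finset.sum_eq_single i]
      · apply Finset.sum_congr rfl
        intro k _
        by_cases hi : i ∈ J k
        · simp [hi, sgn_sq]
        · simp [hi]
      · intro j _ hj
        exact hpair i j (Ne.symm hj)
      · intro h; exact absurd (Finset.mem_univ i) h
    rw [Finset.sum_congr rfl (fun i _ => h2 i), Finset.sum_comm]
    apply Finset.sum_congr rfl
    intro k _
    rw [← Finset.mul_sum]
    simp only [hm]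
    rw [Finset.sum_ite_mem, Finset.univ_inter]
    simp
    ring
  -- first moment
  have hfirst : ∑ k, m k * s k = 0 := by
    have h1 : ∀ k, m k * s k = ∑ i : Fin n, m k * (if i ∈ J k then sgn (a k i) else 0) := by
      intro k
      rw [hs' k, Finset.mul_sum]
    rw [Finset.sum_congr rfl (fun k _ => h1 k), Finset.sum_comm]
    apply Finset.sum_eq_zero
    intro i _
    have h2 := hU {i}
    rw [hchar, if_neg (Finset.singleton_ne_empty i)] at h2
    refine Eq.trans ?_ h2.symm
    apply Finset.sum_congr rfl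
    intro k _
    by_cases hi : i ∈ J k <;> simp [hi, hm]
  set mu : ℝ := fhat f ∅ with hmu
  have hmu' : mu = ∑ k, m k * sgn (f (a k)) := by
    rw [hmu, hF]
    apply Finset.sum_congr rfl
    intro k _
    simp [hm, mul_comm]
  have hvar : ∑ k, m k * (sgn (f (a k)) - mu) ^ 2 = 1 - mu ^ 2 := by
    have h1 : ∀ k, m k * (sgn (f (a k)) - mu) ^ 2
        = m k - 2 * mu * (m k * sgn (f (a k))) + mu ^ 2 * m k := by
      intro k
      have := sgn_sq' (f (a k))
      calc m k * (sgn (f (a k)) - mu) ^ 2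
          = m k * (sgn (f (a k))) ^ 2 - 2 * mu * (m k * sgn (f (a k))) + mu ^ 2 * m k := by ring
        _ = _ := by rw [this, mul_one]
    rw [Finset.sum_congr rfl (fun k _ => h1 k), Finset.sum_add_distrib, Finset.sum_sub_distrib,
      ← Finset.mul_sum, ← Finset.mul_sum, hmass, ← hmu']
    ring
  have hW' : levelOne f = ∑ k, m k * (sgn (f (a k)) - mu) * s k := by
    have h1 : ∀ k, m k * (sgn (f (a k)) - mu) * s k
        = m k * sgn (f (a k)) * s k - mu * (m k * s k) := by
      intro k; ring
    rw [Finset.sum_congr rfl (fun k _ => h1 k), Finset.sum_sub_distrib, ← Finset.mul_sum, hfirst, hW]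
    ring
  -- Cauchy-Schwarz
  have hCS : (levelOne f) ^ 2 ≤ (1 - mu ^ 2) * ∑ k, ((J k).card : ℝ) / 2 ^ (J k).card := by
    rw [hW', ← hsecond, ← hvar]
    exact Finset.sum_sq_le_sum_mul_sum_of_sq_le_mul (Finset.univ : Finset ι)
      (r := fun k => m k * (sgn (f (a k)) - mu) * s k) (f := fun k => m k * (sgn (f (a k)) - mu) ^ 2)
      (g := fun k => m k * (s k) ^ 2)
      (fun k _ => mul_nonneg (hmpos k) (sq_nonneg _)) (fun k _ => mul_nonneg (hmpos k) (sq_nonneg _))
      (fun k _ => le_of_eq <| by ring)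
  have hmain : levelOne f ≤ Real.sqrt ((1 - mu ^ 2) * ∑ k, ((J k).card : ℝ) / 2 ^ (J k).card) :=
    le_trans (le_abs_self _) (Real.abs_le_sqrt hCS)
  have hnn : 0 ≤ ∑ k, ((J k).card : ℝ) / 2 ^ (J k).card :=
    Finset.sum_nonneg (fun k _ => div_nonneg (Nat.cast_nonneg _) (pow_nonneg (by norm_num) _))
  refine ⟨hmain, ?_⟩
  intro w hw
  constructor
  · intro T hT
    rw [hF]
    apply Finset.sum_eq_zero
    intro k _
    have : ¬ T ⊆ J k := by
      intro h
      have := Finset.card_le_card h
      have := hw k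
      omega
    rw [if_neg this, mul_zero]
  · apply le_trans hmain
    apply Real.sqrt_le_sqrt
    calc (1 - mu ^ 2) * ∑ k, ((J k).card : ℝ) / 2 ^ (J k).card
        ≤ 1 * ∑ k, ((J k).card : ℝ) / 2 ^ (J k).card := by
          apply mul_le_mul_of_nonneg_right _ hnn
          nlinarith [sq_nonneg mu]
      _ = ∑ k, ((J k).card : ℝ) / 2 ^ (J k).card := one_mul _
      _ ≤ ∑ k, (w : ℝ) * m k := by
          apply Finset.sum_le_sum
          intro k _
          simp only [hm]
          rw [mul_one_div]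
          apply div_le_div_of_nonneg_right _ (by positivity)
          exact_mod_cast hw k
      _ = w := by rw [← Finset.mul_sum, hmass, mul_one]

end Vale.Agent.Results.P047.SubcubePartition
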